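import Vale.Agent.P088.H738.E2.Defs

/-!
# P088, theorem E by compactness: row AA

Compactness of families of smooth functions which vanish off a compact set and whose derivatives
are bounded. All derivatives at once: a countable product of compact sets (Arzela-Ascoli), a
convergent subsequence, and the limit is a Taylor series.
-/

open MeasureTheory Set Filter Topology
open scoped ContDiff BoundedContinuousFunction

noncomputable section

namespace Vale.Agent.P088.H582

variable {E : Type*} [NormedAddCommGroup E] [NormedSpace ℝ E] [FiniteDimensional ℝ E]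

instance finMul (l : ℕ) : FiniteDimensional ℝ (E [×l]→L[ℝ] ℝ) := by
  refine FiniteDimensional.of_injective
    ((ContinuousMultilinearMap.toMultilinearMapLinear : (E [×l]→L[ℝ] ℝ) →ₗ[ℝ] _)) ?_
  intro a b h
  exact ContinuousMultilinearMap.toMultilinearMap_injective h

theorem evc {α β : Type*} [TopologicalSpace α] [PseudoMetricSpace β] (x : α) :
    Continuous fun F : α →ᵇ β => F x :=
  (LipschitzWith.of_dist_le_mul (K := 1) fun F G => by
    simpa using BoundedContinuousFunction.dist_coe_le_dist (f := F) (g := G) x).continuous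

/-- Bounded, Lipschitz functions on a compact set are a compact set. -/
theorem cpt {α β : Type*} [MetricSpace α] [CompactSpace α] [NormedAddCommGroup β] [ProperSpace β]
    (B : ℝ) (L : NNReal) : IsCompact {F : α →ᵇ β | (∀ x, F x ∈ Metric.closedBall (0 : β) B) ∧
      LipschitzWith L (F : α → β)} := by
  refine BoundedContinuousFunction.arzela_ascoli₂ (Metric.closedBall (0 : β) B)
    (isCompact_closedBall _ _) _ ?_ (fun f x hf => hf.1 x) ?_
  · have h1 : {F : α →ᵇ β | (∀ x, F x ∈ Metric.closedBall (0 : β) B) ∧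
        LipschitzWith L (F : α → β)} = (⋂ x, {F : α →ᵇ β | F x ∈ Metric.closedBall (0 : β) B}) ∩
          ⋂ x, ⋂ y, {F : α →ᵇ β | dist (F x) (F y) ≤ L * dist x y} := by
      ext F; simp [lipschitzWith_iff_dist_le_mul]
    rw [h1]
    refine IsClosed.inter ?_ ?_
    · exact isClosed_iInter fun x =>
        Metric.isClosed_closedBall.preimage (evc x)
    · refine isClosed_iInter fun x => isClosed_iInter fun y => ?_
      exact isClosed_le ((evc x).dist
        (evc y)) continuous_const
  · refine UniformEquicontinuous.equicontinuous ?_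
    refine LipschitzWith.uniformEquicontinuous _ L fun F => F.2.2

omit [FiniteDimensional ℝ E] in
theorem itd_off {C : Set E} (hC : IsClosed C) {f : E → ℝ} (hf : ∀ x ∉ C, f x = 0) (l : ℕ)
    {x : E} (hx : x ∉ C) : iteratedFDeriv ℝ l f x = 0 := by
  have h : f =ᶠ[𝓝 x] fun _ => (0 : ℝ) := by
    filter_upwards [hC.isOpen_compl.mem_nhds hx] with y hy using hf y hy
  rw [(h.iteratedFDeriv ℝ l).eq_of_nhds]
  exact congrFun (iteratedFDeriv_fun_zero (𝕜 := ℝ) (E := E) (F := ℝ) (n := l)) x

theorem aa (C : Set E) (hC : IsCompact C) (B : ℕ → ℝ) (f : ℕ → E → ℝ)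
    (hs : ∀ m, ContDiff ℝ ∞ (f m)) (h0 : ∀ m, ∀ x ∉ C, f m x = 0)
    (hb : ∀ m, ∀ l ≤ m, ∀ x, ‖iteratedFDeriv ℝ l (f m) x‖ ≤ B l) :
    ∃ (φ : ℕ → ℕ) (g : E → ℝ), StrictMono φ ∧ ContDiff ℝ ∞ g ∧ (∀ x ∉ C, g x = 0) ∧
      ∀ (l : ℕ) (ε : ℝ), 0 < ε → ∃ M : ℕ, ∀ m ≥ M, ∀ x,
        ‖iteratedFDeriv ℝ l (fun x => f (φ m) x - g x) x‖ ≤ ε := by
  classical
  have : CompactSpace C := isCompact_iff_compactSpace.mp hC
  have : ∀ l : ℕ, ProperSpace (E [×l]→L[ℝ] ℝ) := fun l => FiniteDimensional.proper ℝ _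
  have hcd : ∀ m l, ContDiff ℝ 1 (iteratedFDeriv ℝ l (f m)) := fun m l =>
    (hs m).iteratedFDeriv_right (m := 1) (i := l) (by exact_mod_cast le_top)
  let F : ℕ → ∀ l : ℕ, C →ᵇ (E [×l]→L[ℝ] ℝ) := fun m l =>
    BoundedContinuousFunction.mkOfCompact
      ⟨fun x : C => iteratedFDeriv ℝ l (f m) x, (hcd m l).continuous.comp continuous_subtype_val⟩
  have hF : ∀ m l (x : C), F m l x = iteratedFDeriv ℝ l (f m) x := fun m l x => rfl
  let A : ∀ l : ℕ, Set (C →ᵇ (E [×l]→L[ℝ] ℝ)) := fun l =>
    {G | (∀ x, G x ∈ Metric.closedBall (0 : E [×l]→L[ℝ] ℝ) (B l)) ∧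
      LipschitzWith (B (l + 1)).toNNReal (G : C → _)} ∪ (fun m => F m l) '' (Set.Iic l)
  have hA : ∀ l, IsCompact (A l) := fun l =>
    (cpt _ _).union ((Set.finite_Iic l).image _).isCompact
  have hFA : ∀ m, F m ∈ Set.univ.pi A := by
    intro m l _
    by_cases hm : m ≤ l
    · exact Or.inr ⟨m, hm, rfl⟩
    · refine Or.inl ⟨fun x => ?_, ?_⟩
      · rw [mem_closedBall_zero_iff, hF]
        exact hb m l (by omega) x
      · have h1 : LipschitzWith (B (l + 1)).toNNReal (iteratedFDeriv ℝ l (f m)) := by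
          refine lipschitzWith_of_nnnorm_fderiv_le (𝕜 := ℝ)
            ((hcd m l).differentiable (by norm_num)) fun x => ?_
          have h2 : ‖fderiv ℝ (iteratedFDeriv ℝ l (f m)) x‖ ≤ B (l + 1) := by
            rw [norm_fderiv_iteratedFDeriv]
            exact hb m (l + 1) (by omega) x
          have h3 : 0 ≤ B (l + 1) := le_trans (norm_nonneg (fderiv ℝ (iteratedFDeriv ℝ l (f m)) x)) h2
          rw [← NNReal.coe_le_coe, Real.coe_toNNReal _ h3]
          exact h2
        intro x y
        exact h1 x y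
  obtain ⟨a, -, φ, hφ, hlim⟩ := (isCompact_univ_pi hA).tendsto_subseq hFA
  rw [tendsto_pi_nhds] at hlim
  let p : E → FormalMultilinearSeries ℝ E ℝ := fun x l =>
    if h : x ∈ C then a l ⟨x, h⟩ else 0
  have hunif : ∀ l (ε : ℝ), 0 < ε → ∃ M : ℕ, ∀ m ≥ M, ∀ x,
      dist (iteratedFDeriv ℝ l (f (φ m)) x) (p x l) < ε := by
    intro l ε hε
    obtain ⟨M, hM⟩ := (Metric.tendsto_atTop.1 (hlim l)) ε hε
    refine ⟨M, fun m hm x => ?_⟩
    by_cases hx : x ∈ C
    · have h1 := (BoundedContinuousFunction.dist_coe_le_dist (f := F (φ m) l) (g := a l)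
        (⟨x, hx⟩ : C)).trans_lt (hM m hm)
      simp only [p, hx, dite_true]
      exact h1
    · simp only [p, hx, dite_false]
      rw [itd_off hC.isClosed (h0 _) l hx, dist_self]
      exact hε
  have htu : ∀ l, TendstoUniformly (fun m x => iteratedFDeriv ℝ l (f (φ m)) x)
      (fun x => p x l) atTop := by
    intro l
    rw [Metric.tendstoUniformly_iff]
    intro ε hε
    obtain ⟨M, hM⟩ := hunif l ε hε
    filter_upwards [eventually_ge_atTop M] with m hm x
    rw [dist_comm]
    exact hM m hm x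
  let g : E → ℝ := fun x => (p x 0).curry0
  have hT : HasFTaylorSeriesUpTo ∞ g p := by
    refine ⟨fun x => rfl, fun l _ x => ?_, fun l _ => ?_⟩
    · refine hasFDerivAt_of_tendstoUniformly (l := atTop)
        (f := fun m => iteratedFDeriv ℝ l (f (φ m)))
        (f' := fun m x => (iteratedFDeriv ℝ (l + 1) (f (φ m)) x).curryLeft)
        (g' := fun x => (p x l.succ).curryLeft) ?_ ?_ ?_ x
      · have h1 := (continuousMultilinearCurryLeftEquiv ℝ (fun _ : Fin (l + 1) => E) ℝ
          ).isometry.uniformContinuous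
        exact h1.comp_tendstoUniformly (htu (l + 1))
      · intro m y
        have h2 := ((hs (φ m)).ftaylorSeries (𝕜 := ℝ)).fderiv l (by exact_mod_cast WithTop.coe_lt_top l) y
        exact h2
      · intro y
        exact (htu l).tendsto_at y
    · exact (htu l).continuous (Frequently.of_forall fun m => (hcd (φ m) l).continuous)
  have hg : ContDiff ℝ ∞ g := hT.contDiff
  have hgp : ∀ l x, p x l = iteratedFDeriv ℝ l g x := fun l x =>
    hT.eq_iteratedFDeriv (by exact_mod_cast le_top) x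
  refine ⟨φ, g, hφ, hg, fun x hx => ?_, fun l ε hε => ?_⟩
  · simp [g, p, hx]
  · obtain ⟨M, hM⟩ := hunif l ε hε
    refine ⟨M, fun m hm x => ?_⟩
    have h1 := hM m hm x
    rw [hgp, dist_eq_norm] at h1
    have h2 : iteratedFDeriv ℝ l (fun x => f (φ m) x - g x) x =
        iteratedFDeriv ℝ l (f (φ m)) x - iteratedFDeriv ℝ l g x := by
      have h3 := iteratedFDeriv_sub_apply (𝕜 := ℝ) (i := l) (x := x) (f := f (φ m)) (g := g)
        ((hs (φ m)).of_le (by exact_mod_cast le_top)).contDiffAt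
        (hg.of_le (by exact_mod_cast le_top)).contDiffAt
      exact h3
    rw [h2]
    exact h1.le

theorem rowAA : Vale.Agent.P088.LR.E2.RowAA := by
  intro n _ B f hs h0 hb
  have hC : IsCompact (Vale.Agent.P088.LR.core n) := by
    have h1 : Vale.Agent.P088.LR.core n = Set.Icc (fun _ => 1 / 4) (fun _ => 3 / 4) := by
      ext x
      simp only [Vale.Agent.P088.LR.core, Set.mem_setOf_eq, Set.mem_Icc, Pi.le_def]
      exact forall_and
    rw [h1]
    exact isCompact_Icc
  obtain ⟨φ, g, hφ, hg, h0g, hlim⟩ := aa _ hC B f hs h0 fun m l hl x => hb m l hl x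
  refine ⟨φ, g, hφ, hg, h0g, fun k ε hε => ?_⟩
  choose M hM using fun l : ℕ => hlim l ε hε
  refine ⟨(Finset.range (k + 1)).sup M, fun m hm l hl x => hM l m ?_ x⟩
  exact (Finset.le_sup (f := M) (Finset.mem_range.2 (by omega))).trans hm

end Vale.Agent.P088.H582
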